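import Vale.Agent.P305.Bdl.B2
import Mathlib.Combinatorics.SimpleGraph.VertexCover

/-! Maximum matching from one bipartite call and `1 + 2 (τ - ν)` searches, where `τ` is the vertex
cover number and `ν` the matching number. -/

set_option autoImplicit false
set_option linter.unusedSimpArgs false

namespace Vale.Agent.P305

open Function (update)
open L1

/-- Every odd cycle of a matching `g` of the double cover has an arc with both ends in the vertex
cover `X`, so the number of odd cycles plus the number of arcs is at most `2 |X|`. -/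
theorem cover_bound {n : ℕ} {A : ℕ → ℕ → Prop} {g C O : ℕ → ℕ} (hA : PI n A g)
    (hwalk : ∀ c ≤ n, O c = 1 → ∃ s k, k % 2 = 1 ∧
      (∀ i ≤ k, wf n g s i < n ∧ C (wf n g s i) = c) ∧
      (∀ i < k, A (wf n g s i) (wf n g s (i + 1))) ∧ wf n g s k = wf n g s 0)
    (hfull : ∀ v < n, O (C v) = 1 → g v ≠ v)
    {X : Finset ℕ} (_hX : X ⊆ Finset.range n) (hcov : ∀ u v, A u v → u ∈ X ∨ v ∈ X)
    (F : Finset ℕ) (hF : ∀ c ∈ F, c ≤ n ∧ O c = 1) :
    F.card + n ≤ 2 * X.card + ((Finset.range n).filter (fun v => g v = v)).card := by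
  classical
  obtain ⟨dom, hdom⟩ : ∃ dom, dom = (Finset.range n).filter (fun v => ¬ g v = v) := ⟨_, rfl⟩
  have hsucc : ∀ v ∈ dom, g v - n < n ∧ A v (g v - n) ∧ g v = n + (g v - n) := by
    intro v hv
    rw [hdom, Finset.mem_filter, Finset.mem_range] at hv
    rcases hA.out v hv.1 with h | ⟨w, hw, e, e2⟩
    · exact absurd h hv.2
    · have : g v - n = w := by omega
      rw [this]
      exact ⟨hw, e2, e⟩
  have hvn : ∀ v ∈ dom, v < n := by
    intro v hv
    rw [hdom, Finset.mem_filter, Finset.mem_range] at hv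
    exact hv.1
  -- arcs starting in `X`
  have c1 : (dom.filter (fun v => v ∈ X)).card ≤ X.card := by
    apply Finset.card_le_card
    intro v hv
    exact (Finset.mem_filter.1 hv).2
  -- arcs ending in `X`
  have c2 : (dom.filter (fun v => g v - n ∈ X)).card ≤ X.card := by
    apply Finset.card_le_card_of_injOn (fun v => g v - n)
    · intro v hv
      exact (Finset.mem_filter.1 hv).2
    · intro v hv w hw e
      have hv' := Finset.mem_coe.1 hv
      have hw' := Finset.mem_coe.1 hw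
      rw [Finset.mem_filter] at hv' hw'
      obtain ⟨v1, v2, v3⟩ := hsucc v hv'.1
      obtain ⟨w1, w2, w3⟩ := hsucc w hw'.1
      have e' : g v - n = g w - n := e
      rw [← e'] at w3
      exact PI.eq_arc hA (hvn v hv'.1) (hvn w hw'.1) v1 v3 w3
  -- every arc starts or ends in `X`
  have c3 : (dom.filter (fun v => v ∈ X ∨ g v - n ∈ X)).card = dom.card := by
    rw [Finset.filter_true_of_mem]
    intro v hv
    exact hcov _ _ (hsucc v hv).2.1
  have c4 : (dom.filter (fun v => v ∈ X)).card + (dom.filter (fun v => g v - n ∈ X)).card =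
      (dom.filter (fun v => v ∈ X ∨ g v - n ∈ X)).card +
      (dom.filter (fun v => v ∈ X ∧ g v - n ∈ X)).card := by
    rw [Finset.filter_or, Finset.filter_and, Finset.card_union_add_card_inter]
  -- every odd cycle has an arc inside `X`
  have c5 : F.card ≤ (dom.filter (fun v => v ∈ X ∧ g v - n ∈ X)).card := by
    refine le_trans (Finset.card_le_card (t := (dom.filter (fun v => v ∈ X ∧ g v - n ∈ X)).image C)
      ?_) Finset.card_image_le
    intro c hc
    obtain ⟨hcn, hO⟩ := hF c hc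
    obtain ⟨s, k, hk, w1, w2, w3⟩ := hwalk c hcn hO
    by_contra hno
    have hodd := oddSet_of_walk (A := fun u v => ¬ (u ∈ X ∧ v ∈ X) ∧ (u ∈ X ∨ v ∈ X))
      (S := fun _ => True) (wf n g s) hk (fun _ _ => trivial) (fun i hi => by
        refine ⟨fun hboth => hno ?_, hcov _ _ (w2 i hi)⟩
        rw [Finset.mem_image]
        refine ⟨wf n g s i, ?_, (w1 i hi.le).2⟩
        rw [Finset.mem_filter, hdom, Finset.mem_filter, Finset.mem_range]
        refine ⟨⟨(w1 i hi.le).1, hfull _ (w1 i hi.le).1 (by rw [(w1 i hi.le).2]; exact hO)⟩,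
          hboth.1, ?_⟩
        have := hboth.2
        rw [wf_succ] at this
        exact this) w3
    apply hodd
    refine ⟨fun v => decide (v ∈ X), ?_⟩
    intro u v _ _ huv heq
    rw [decide_eq_decide] at heq
    tauto
  have c6 := Finset.card_filter_add_card_filter_not (s := Finset.range n) (fun v => g v = v)
  rw [Finset.card_range, ← hdom] at c6
  omega

variable {R : List ℕ → (ℕ → ℕ) → ℕ → Prop} {cap : ℕ}

/-- What stage 1 achieves, with a bound by vertex covers. -/
structure S1ResK (n : ℕ) (A : ℕ → ℕ → Prop) (m C : ℕ → ℕ) (F : Finset ℕ) : Prop where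
  base : S1Res n A m C F
  cov : ∀ (X : Finset ℕ) (m' : ℕ → ℕ), X ⊆ Finset.range n → (∀ u v, A u v → u ∈ X ∨ v ∈ X) →
    Mat A m' → F.card + n ≤ 2 * X.card + (exposed n m').card

theorem stage1_specK {n : ℕ} {A : ℕ → ℕ → Prop} (s : St) {τ : ℕ}
    (hBB : ∀ (H : SimpleGraph (Fin (2 * n))) (L' : AdjLists H), H.IsBipartite →
      (L'.upTo (2 * n)).length ≤ 2 * s.a 4 n →
      ∃ out t M, R L'.encode out t ∧ t ≤ τ ∧ IsMaximumMatching H M ∧ Represents out M)
    (hG : Gr n A) (hcsr : CSR n A (s.a 4) (s.a 5)) (h0 : s.r 0 = n) (h1 : s.r 1 = 0)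
    (hclean : Clean (s.a 1)) (hlen : encLen (s.a 1) ≤ 2 * n + 2 + 2 * s.a 4 n)
    (hcap : 2 * n + 2 + 2 * s.a 4 n ≤ cap) :
    ∃ s' t m C F, Ex R cap stage1 s t s' ∧ t ≤ τ + 200 * (n + s.a 4 n + 1) ∧
      S1ResK n A m C F ∧ (∀ v < n, s'.a 40 v = m v) ∧ s'.r 0 = n ∧ s'.r 1 = 0 ∧
      (∀ j ∈ [4, 5], s'.a j = s.a j) := by
  -- double cover
  obtain ⟨s1, t1, e1, ht1, a10, a2n, a20, areg, aarr⟩ := dcC_spec (R := R) (cap := cap) s hG hcsr
    h0 (by omega)
  have a1 : s1.a 1 = s.a 1 := aarr 1 (by decide) (by decide)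
  -- packing
  obtain ⟨s2, t2, L', e2, ht2, hL', hcl2, hlen2, hup2, barr, breg⟩ := pack_spec' (R := R)
    (cap := cap) s1 (H := dcG n A) a20 (by rw [a1]; exact hclean) (by rw [a1]; (clear * - hlen hcap; omega))
    (by rw [natAdj_dcG hG]; exact a10)
  rw [a1, a2n] at ht2
  -- call
  obtain ⟨out, tc, M, hRc, htc, hMM, hrep⟩ := hBB (dcG n A) L' (dcG_bip n A)
    (by rw [hup2, a2n])
  have e3 : Ex R cap .call s2 (tc + L'.encode.length + 1) (callResult s2 L'.encode out) :=
    Ex.call hL' hRc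
  obtain ⟨s3, hs3⟩ : ∃ s3, s3 = callResult s2 L'.encode out := ⟨_, rfl⟩
  rw [← hs3] at e3
  have c3r : s3.r = s2.r := by rw [hs3]; rfl
  have c3a : ∀ j, j ≠ 2 → s3.a j = s2.a j := by
    intro j hj
    rw [hs3]
    show update s2.a 2 _ j = _
    rw [Function.update_of_ne hj]
  have hgmax := isMax_mateOf hMM
  rw [natAdj_dcG hG] at hgmax
  obtain ⟨g, hg⟩ : ∃ g, g = mateOf M := ⟨_, rfl⟩
  rw [← hg] at hgmax
  have c32 : ∀ v < 2 * n, s3.a 2 v = if g v = v then 0 else g v + 1 := by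
    intro v hv
    rw [hs3]
    show update s2.a 2 _ 2 v = _
    rw [Function.update_self]
    have hh : L'.encode.headI = 2 * n := rfl
    show (if v < L'.encode.headI then out v else s2.a 2 v) = _
    rw [hh, if_pos hv, hg]
    exact hrep.mateOf hMM.1 hv
  have r21 : s2.r 1 = 0 := by rw [breg 1 (by omega), areg 1 (by decide)]; exact h1
  have r20 : s2.r 0 = n := by rw [breg 0 (by omega), areg 0 (by decide)]; exact h0
  -- reading
  obtain ⟨s4, t4, e4, ht4, d41, dreg, darr⟩ := readC_spec (R := R) (cap := cap) s3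
    (by rw [c3r, breg 20 (by omega)]; exact a20) (by rw [c3r]; exact r21) c32
  have r40 : s4.r 0 = n := by rw [dreg 0 (by decide), c3r]; exact r20
  have r41 : s4.r 1 = 0 := by rw [dreg 1 (by decide), c3r]; exact r21
  have k4 : ∀ j ∈ [4, 5], s4.a j = s.a j := by
    intro j hj
    rw [darr j (by rintro rfl; exact absurd hj (by decide)),
      c3a j (by rintro rfl; exact absurd hj (by decide)),
      barr j (by rintro rfl; exact absurd hj (by decide)),
      aarr j (by rintro rfl; exact absurd hj (by decide))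
        (by rintro rfl; exact absurd hj (by decide))]
  have hA := hgmax.1.toPI hG
  -- initialisation
  obtain ⟨s5, t5, e5, ht5, f42, f43, f45, f46, freg, farr⟩ := iniC_spec (R := R) (cap := cap) s4
    r40 r41
  -- first pass
  obtain ⟨s6, t6, e6, hV6, hN6, ht6, greg, garr⟩ := p1C_spec (R := R) (cap := cap) hA hG.irr s5
    (by rw [freg 0 (by decide)]; exact r40) (by rw [freg 1 (by decide)]; exact r41)
    (by intro v hv; rw [farr 41 (by decide)]; exact d41 v hv)
    (PV.init (fun v hv => f42 v (by omega)) f45) (fun v hv => f42 v (by omega)) (f45 0 (by omega))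
  -- second pass
  obtain ⟨s7, t7, e7, ht7, hV7, hall, hT7, h764, h765, hreg, harr⟩ := p2C_spec (R := R)
    (cap := cap) hA hG.irr s6
    (by rw [greg 0 (by decide), freg 0 (by decide)]; exact r40)
    (by rw [greg 1 (by decide), freg 1 (by decide)]; exact r41)
    (by intro v hv; rw [garr 41 (by decide), farr 41 (by decide)]; exact d41 v hv)
    hV6 hN6
    (by
      constructor
      · intro c hc
        rw [garr 46 (by decide), garr 45 (by decide), f45 c hc, f46 c hc]
      · intro c hc hO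
        rw [garr 45 (by decide), f45 c hc] at hO
        omega)
  have hcyc := hV7.cyc le_rfl hall
  have hP7 : Prg n A (s7.a 43) (s7.a 45) (s7.a 46) (s7.a 47) (s7.a 48) := by
    constructor
    · intro c hc hO
      obtain ⟨x1, _, x2, _⟩ := hT7.d c hc hO
      exact ⟨x1, x2⟩
    · intro c hc hO
      obtain ⟨_, _, _, x4⟩ := hT7.d c hc hO
      exact Or.inl ⟨by rw [hT7.eq c hc]; exact hO, x4⟩
    · intro c hc hT
      rw [← hT7.eq c hc]; exact hT
  have r70 : s7.r 0 = n := by
    rw [hreg 0 (by decide), greg 0 (by decide), freg 0 (by decide)]; exact r40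
  have r71 : s7.r 1 = 0 := by
    rw [hreg 1 (by decide), greg 1 (by decide), freg 1 (by decide)]; exact r41
  have k7 : ∀ j ∈ [4, 5], s7.a j = s.a j := by
    intro j hj
    rw [harr j (fun h => (by decide : ∀ x ∈ p2Arrs, x ∉ [4, 5]) j h hj),
      garr j (fun h => (by decide : ∀ x ∈ [42, 43, 44], x ∉ [4, 5]) j h hj),
      farr j (fun h => (by decide : ∀ x ∈ [42, 43, 45, 46], x ∉ [4, 5]) j h hj), k4 j hj]
  -- pairing
  obtain ⟨s8, t8, e8, ht8, hP8, hap, ireg, iarr⟩ := prC_spec (R := R) (cap := cap) s7 hG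
    (by rw [k7 4 (by decide), k7 5 (by decide)]; exact hcsr) r70 r71 h765 hcyc.le hP7
  rw [k7 4 (by decide)] at ht8
  have hcyc8 : Cyc n g (s8.a 42) (s8.a 43) (s8.a 44) (s8.a 45) := by
    rw [iarr 42 (by decide), iarr 43 (by decide), iarr 44 (by decide), iarr 45 (by decide)]
    exact hcyc
  -- final pass
  obtain ⟨s9, t9, e9, ht9, l40, lreg, larr⟩ := fmC_spec (R := R) (cap := cap) (n := n) (g := g) s8
    (by rw [ireg 0 (by decide)]; exact r70) (by rw [ireg 64 (by decide)]; exact h764)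
    (by rw [ireg 65 (by decide)]; exact h765)
    (by
      intro v hv
      rw [iarr 41 (by decide), harr 41 (by decide), garr 41 (by decide), farr 41 (by decide)]
      exact d41 v hv)
  refine ⟨s9, _, fm n g (s8.a 42) (s8.a 43) (s8.a 44) (s8.a 45) (s8.a 47) (s8.a 48), s8.a 43,
    (Finset.range (n + 1)).filter (fun c => s8.a 46 c = 1),
    .seq e1 (.seq e2 (.seq e3 (.seq e4 (.seq e5 (.seq e6 (.seq e7 (.seq e8 e9))))))), ?_,
    ⟨⟨?_, ?_, ?_, ?_⟩, ?_⟩, l40, ?_, ?_, ?_⟩
  · have hel : L'.encode.length = 2 * n + 2 + s1.a 10 (2 * n) := by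
      rw [L'.encode_length, hup2]
    rw [a2n] at hel
    omega
  · exact hcyc8.mat hA hG hP8
  · intro m' hm'
    have x1 := hcyc8.card hA hP8
    have x2 := card_out_le hG hgmax hm'
    omega
  · intro c hc
    rw [Finset.mem_filter, Finset.mem_range] at hc
    have hO := hP8.tO c (by omega) hc.2
    rw [iarr 45 (by decide)] at hO
    obtain ⟨s0, k, hk, w1, w2, w3⟩ := hV7.walk c (by omega) hO
    rw [iarr 43 (by decide)]
    exact oddSet_of_walk (wf n g s0) hk (fun i hi => ⟨(w1 i hi).1, (w1 i hi).2.2⟩) w2 w3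
  · intro u v huv hu hv
    rw [Finset.mem_filter] at hu hv
    exact hap u v huv hu.2 hv.2
  · intro X m' hX hcov hm'
    have x2 := card_out_le hG hgmax hm'
    have x3 := cover_bound hA (fun c hc hO => by
      obtain ⟨s0, k, hk, w1, w2, w3⟩ := hV7.walk c hc hO
      exact ⟨s0, k, hk, fun i hi => ⟨(w1 i hi).1, (w1 i hi).2.2⟩, w2, w3⟩)
      (fun v hv hO => (hcyc.full v hv hO).1) hX hcov
      ((Finset.range (n + 1)).filter (fun c => s8.a 46 c = 1)) (by
        intro c hc
        rw [Finset.mem_filter, Finset.mem_range] at hc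
        have hO := hP8.tO c (by omega) hc.2
        rw [iarr 45 (by decide)] at hO
        exact ⟨by omega, hO⟩)
    omega
  · rw [lreg 0 (by decide), ireg 0 (by decide)]; exact r70
  · rw [lreg 1 (by decide), ireg 1 (by decide)]; exact r71
  · intro j hj
    rw [larr j (by rintro rfl; exact absurd hj (by decide)),
      iarr j (fun h => (by decide : ∀ x ∈ [46, 47, 48], x ∉ [4, 5]) j h hj), k7 j hj]

/-- The König deficiency `τ - ν`: the least `k` such that some vertex cover `S` and some matching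
`M` satisfy `|S| ≤ |M| + k`. It is `0` exactly for the König–Egerváry graphs. -/
noncomputable def koenigDef {n : ℕ} (G : SimpleGraph (Fin n)) : ℕ :=
  sInf {k | ∃ (S : Set (Fin n)) (M : G.Subgraph), G.IsVertexCover S ∧ M.IsMatching ∧
    S.ncard ≤ M.edgeSet.ncard + k}

theorem koenigDef_spec {n : ℕ} (G : SimpleGraph (Fin n)) :
    ∃ (S : Set (Fin n)) (M : G.Subgraph), G.IsVertexCover S ∧ M.IsMatching ∧
      S.ncard ≤ M.edgeSet.ncard + koenigDef G := by
  have hne : {k | ∃ (S : Set (Fin n)) (M : G.Subgraph), G.IsVertexCover S ∧ M.IsMatching ∧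
      S.ncard ≤ M.edgeSet.ncard + k}.Nonempty := by
    refine ⟨n, Set.univ, ⊥, by simp, ?_, ?_⟩
    · intro v hv
      exact absurd hv (by simp)
    · have h := Set.ncard_le_card (Set.univ : Set (Fin n))
      simp only [Nat.card_eq_fintype_card, Fintype.card_fin] at h
      omega
  exact Nat.sInf_mem hne

theorem S1ResK.card_leK {n : ℕ} {G : SimpleGraph (Fin n)} {m C : ℕ → ℕ} {F : Finset ℕ}
    (h : S1ResK n (natAdj G) m C F) : F.card ≤ 2 * koenigDef G := by
  classical
  obtain ⟨S, M, hS, hM, hle⟩ := koenigDef_spec G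
  have h1 := h.cov (S.toFinset.map Fin.valEmbedding) (mateOf M) (by
    intro v hv
    rw [Finset.mem_map] at hv
    obtain ⟨u, _, rfl⟩ := hv
    exact Finset.mem_range.2 u.2) (by
    rintro u v ⟨hu, hv, huv⟩
    rcases hS huv with h2 | h2
    · left
      rw [Finset.mem_map]
      exact ⟨_, Set.mem_toFinset.2 h2, rfl⟩
    · right
      rw [Finset.mem_map]
      exact ⟨_, Set.mem_toFinset.2 h2, rfl⟩) (mateOf_mat hM)
  have h2 := mateOf_card hM
  rw [Finset.card_map, ← Set.ncard_eq_toFinset_card'] at h1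
  omega

theorem odd_runK {n : ℕ} (G : SimpleGraph (Fin n)) (L : AdjLists G)
    {R : List ℕ → (ℕ → ℕ) → ℕ → Prop} {cap τ : ℕ}
    (hcap : 2 * n + 4 * G.edgeSet.ncard + 2 ≤ cap)
    (hR : ∀ (n' : ℕ) (H : SimpleGraph (Fin n')) (L' : AdjLists H), H.IsBipartite →
      (n' = 2 * n ∧ H.edgeSet.ncard ≤ 2 * G.edgeSet.ncard) →
        ∃ (out : ℕ → ℕ) (t : ℕ) (M : H.Subgraph), R L'.encode out t ∧ t ≤ τ ∧
          IsMaximumMatching H M ∧ Represents out M) :
    ∃ (t : ℕ) (s : St) (M : G.Subgraph), Ex R cap oddC (St.init L.encode) t s ∧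
      t ≤ 2200 * ((min (oddPacking G) (koenigDef G) + 1) * ((Nat.log 2 n + 1) * (n + G.edgeSet.ncard + 1))) +
        1 * τ ∧ IsMaximumMatching G M ∧ Represents (s.a 3) M := by
  set m := G.edgeSet.ncard with hm
  set Λ := Nat.log 2 n + 1 with hΛ
  have hG := natAdj_gr G
  have hinit : ∀ j i, (St.init L.encode).a j i = if j = 0 then L.encode.getD i 0 else 0 :=
    fun j i => rfl
  have hoffn : L.encode.getD (n + 1) 0 = 2 * m := by rw [L.encode_off le_rfl, L.upTo_length]
  obtain ⟨s1, t1, e1, ht1, r10, r11, o1, a1, j1⟩ := unpack_spec (R := R) (cap := cap)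
    (St.init L.encode) n (2 * m) (by rw [hinit, if_pos rfl, L.encode_zero])
    (by rw [hinit, if_pos rfl, hoffn])
  have hn : s1.a 4 n = 2 * m := by rw [o1 n le_rfl, hinit, if_pos rfl, hoffn]
  have hC : CSR n (natAdj G) (s1.a 4) (s1.a 5) := by
    refine csr_of_encode L (fun i hi => ?_) (fun p hp => ?_)
    · rw [o1 i hi, hinit, if_pos rfl]
    · rw [a1 p (by omega), hinit, if_pos rfl]
  have q1 : s1.a 1 = fun _ => 0 := by
    rw [j1 1 (by decide) (by decide)]
    funext i
    rw [hinit, if_neg (by decide)]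
  obtain ⟨s2, t2, m1, C, F, e2, ht2, hS, h40, r20, r21, h45⟩ := stage1_specK (R := R) (cap := cap)
    (n := n) (A := natAdj G) s1 (τ := τ)
    (by
      intro H L' hH hlen
      refine hR _ H L' hH ⟨rfl, ?_⟩
      rw [hn, L'.upTo_length] at hlen
      omega)
    hG hC r10 r11 (by rw [q1]; intro i _; rfl) (by rw [q1]; simp [encLen]; (clear * - r10 hn; omega))
    (by rw [hn]; omega)
  obtain ⟨s3, t3, f, e3, ht3, hmax, f40, r30, r31⟩ := augLoop_spec (R := R) (cap := cap)
    hG s2 (by rw [h45 4 (by decide), h45 5 (by decide)]; exact hC) r20 r21 hS.base.mat hS.base.card h40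
  obtain ⟨s4, t4, e4, ht4, a43⟩ := cOut_spec (R := R) (cap := cap) s3 r30
  obtain ⟨M, hM, hrep⟩ := maximum_of_isMax (f := s4.a 3) hmax (by
    intro v hv
    rw [a43 v hv, f40 v hv])
  refine ⟨_, s4, M, .seq e1 (.seq e2 (.seq e3 e4)), ?_, hM, hrep⟩
  -- the time
  rw [h45 4 (by decide), hn, ← hΛ] at ht3
  rw [hn] at ht2
  have hF1 := hS.base.card_le
  have hF2 := hS.card_leK
  set X := Λ * (n + m + 1) with hX
  obtain ⟨k, hk⟩ : ∃ k, k = min (oddPacking G) (koenigDef G) := ⟨_, rfl⟩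
  have hF : F.card ≤ 2 * k := by
    rw [hk]
    rcases min_cases (oddPacking G) (koenigDef G) with ⟨e, _⟩ | ⟨e, _⟩ <;> rw [e] <;> omega
  rw [← hk]
  have x1 : n + m + 1 ≤ X := Nat.le_mul_of_pos_left _ (by omega)
  have x2 : X ≤ (k + 1) * X := Nat.le_mul_of_pos_left _ (by omega)
  have x3 : (F.card + 1) * (300 * (Λ * (n + 2 * m + 1))) ≤ 1200 * ((k + 1) * X) := by
    calc (F.card + 1) * (300 * (Λ * (n + 2 * m + 1))) ≤
        (2 * (k + 1)) * (300 * (Λ * (2 * (n + m + 1)))) := by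
          apply Nat.mul_le_mul (by omega)
          apply Nat.mul_le_mul_left
          apply Nat.mul_le_mul_left
          (clear * - r10 r20 r30; omega)
      _ = 1200 * ((k + 1) * X) := by rw [hX]; ring
  rw [one_mul]
  omega

/-- Maximum matching from one bipartite call and few searches. -/
theorem koenig_reduction (T : ℕ → ℕ → ℕ)
    (hT : ∀ n n' m m', n ≤ n' → m ≤ m' → T n m ≤ T n' m')
    (hP : ∃ P, Solves P (fun _ G => G.IsBipartite) (fun n G => T n G.edgeSet.ncard)) :
    ∃ P C, Solves P (fun _ _ => True) (fun n G =>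
      C * (T (2 * n) (2 * G.edgeSet.ncard) +
        (min (oddPacking G) (koenigDef G) + 1) * ((Nat.log 2 n + 1) * (n + G.edgeSet.ncard + 1)))) := by
  obtain ⟨P, hP⟩ := hP
  obtain ⟨k0, hk0⟩ : ∃ k0, 2200 ≤ 2 ^ k0 := ⟨12, by norm_num⟩
  have hlog : ∀ n m, Nat.log 2 n + 1 ≤ n + m + 2 := by
    intro n m
    have := Nat.log_le_self 2 n
    omega
  have hpow : ∀ N, 2 ≤ N → 2200 * N ^ 3 ≤ N ^ (k0 + 3) := by
    intro N hN
    rw [pow_add]
    apply Nat.mul_le_mul_right
    exact hk0.trans (Nat.pow_le_pow_left hN k0)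
  have hA : ∀ (n : ℕ) (G : SimpleGraph (Fin n)),
      2200 * ((min (oddPacking G) (koenigDef G) + 1) * ((Nat.log 2 n + 1) * (n + G.edgeSet.ncard + 1))) ≤
        (n + G.edgeSet.ncard + 2) ^ (k0 + 3) := by
    intro n G
    refine le_trans (Nat.mul_le_mul_left _ ?_) (hpow _ (by omega))
    have h1 := (min_le_left (oddPacking G) (koenigDef G)).trans (oddPacking_le G)
    have h2 := hlog n G.edgeSet.ncard
    obtain ⟨N, hN⟩ : ∃ N, N = n + G.edgeSet.ncard + 2 := ⟨_, rfl⟩
    rw [← hN] at h2 ⊢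
    have h3 : (min (oddPacking G) (koenigDef G) + 1) * ((Nat.log 2 n + 1) * (n + G.edgeSet.ncard + 1)) ≤
        N * (N * N) := Nat.mul_le_mul (by omega) (Nat.mul_le_mul h2 (by omega))
    have h4 : N * (N * N) = N ^ 3 := by ring
    omega
  have hC : ∀ (n : ℕ) (G : SimpleGraph (Fin n)),
      2 * n + 4 * G.edgeSet.ncard + 2 ≤ (n + G.edgeSet.ncard + 2) ^ (k0 + 3) := by
    intro n G
    refine le_trans ?_ (hpow _ (by omega))
    obtain ⟨N, hN⟩ : ∃ N, N = n + G.edgeSet.ncard + 2 := ⟨_, rfl⟩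
    rw [← hN]
    have h4 : N * 1 ≤ N * (N * N) :=
      Nat.mul_le_mul_left _ (Nat.mul_pos (by omega) (by omega))
    have h5 : N * (N * N) = N ^ 3 := by ring
    omega
  have hsz : ∀ (n : ℕ) (G : SimpleGraph (Fin n)), True → ∀ (n' : ℕ) (H : SimpleGraph (Fin n')),
      H.IsBipartite → (n' = 2 * n ∧ H.edgeSet.ncard ≤ 2 * G.edgeSet.ncard) →
      n' + H.edgeSet.ncard + 2 ≤ (n + G.edgeSet.ncard + 2) ^ 2 ∧
        T n' H.edgeSet.ncard ≤ T (2 * n) (2 * G.edgeSet.ncard) := by
    rintro n G - n' H - ⟨h1, h2⟩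
    refine ⟨?_, hT _ _ _ _ h1.le h2⟩
    obtain ⟨N, hN⟩ : ∃ N, N = n + G.edgeSet.ncard + 2 := ⟨_, rfl⟩
    rw [← hN, pow_two]
    have h4 : 2 * N ≤ N * N := Nat.mul_le_mul_right _ (by omega)
    omega
  obtain ⟨P', C, k, hk⟩ := solves_of_L1 (CG := fun _ _ => True) hP (K := 64) (by decide)
    oddC (cst := 4) oddC_ok (k0 + 3) 2
    (fun n G n' H => n' = 2 * n ∧ H.edgeSet.ncard ≤ 2 * G.edgeSet.ncard)
    (fun n G => T (2 * n) (2 * G.edgeSet.ncard))
    (fun n G => 2200 * ((min (oddPacking G) (koenigDef G) + 1) * ((Nat.log 2 n + 1) * (n + G.edgeSet.ncard + 1))))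
    (fun _ _ => 1) hsz (fun n G _ => hA n G)
    (fun n G _ L R τ hR => odd_runK G L (hC n G) hR)
  refine ⟨P', 2201 * C, k, fun n G hG L => ?_⟩
  obtain ⟨t, s, M, e, ht, hM, hr⟩ := hk n G hG L
  refine ⟨t, s, M, e, ht.trans ?_, hM, hr⟩
  beta_reduce
  set Λ := Nat.log 2 n + 1 with hΛ
  set m := G.edgeSet.ncard with hm
  set Y := T (2 * n) (2 * m) with hY
  set X := (min (oddPacking G) (koenigDef G) + 1) * (Λ * (n + m + 1)) with hX
  have y1 : n + m + 1 ≤ X :=
    le_trans (Nat.le_mul_of_pos_left _ (by omega)) (Nat.le_mul_of_pos_left _ (by omega))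
  calc C * (2200 * X + 1 * Y + n + m + 1) ≤ C * (2201 * (Y + X)) :=
        Nat.mul_le_mul_left _ (by omega)
    _ = 2201 * C * (Y + X) := by ring

/-- Almost-linear time when the odd packing number or the König deficiency is subpolynomial. -/
theorem koenig_almostLinear (hB : AlmostLinear fun _ G => G.IsBipartite) (κ : ℕ → ℕ)
    (hκ : ∀ ε : ℝ, 0 < ε → ∃ c : ℝ, ∀ N : ℕ, (κ N : ℝ) ≤ c * ((N : ℝ) + 1) ^ ε) :
    AlmostLinear fun n G => min (oddPacking G) (koenigDef G) ≤ κ (n + G.edgeSet.ncard) := by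
  obtain ⟨P, T, hP, hT⟩ := hB
  set Tb : ℕ → ℕ := fun N => (Finset.range (N + 1)).sup T with hTb
  have hle : ∀ N, T N ≤ Tb N := fun N =>
    Finset.le_sup (f := T) (Finset.mem_range.2 (Nat.lt_succ_self N))
  have hmono : ∀ N N', N ≤ N' → Tb N ≤ Tb N' := by
    intro N N' hN
    apply Finset.sup_mono
    intro x hx
    rw [Finset.mem_range] at hx ⊢
    omega
  have hTb' : ∀ ε : ℝ, 0 < ε → ∃ c : ℝ, 0 ≤ c ∧ ∀ N : ℕ,
      (Tb N : ℝ) ≤ c * ((N : ℝ) + 1) ^ (1 + ε) := by
    intro ε hε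
    obtain ⟨c, hc⟩ := hT ε hε
    have hc0 : 0 ≤ c := by
      have := hc 0
      simp only [Nat.cast_zero, zero_add, Real.one_rpow, mul_one] at this
      exact (Nat.cast_nonneg _).trans this
    refine ⟨c, hc0, fun N => ?_⟩
    obtain ⟨k, hk, hk'⟩ : ∃ k ∈ Finset.range (N + 1), (Finset.range (N + 1)).sup T = T k :=
      Finset.exists_mem_eq_sup _ ⟨0, by simp only [Finset.mem_range, lt_add_iff_pos_left, Order.lt_add_one_iff, zero_le]⟩ T
    show (((Finset.range (N + 1)).sup T : ℕ) : ℝ) ≤ _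
    rw [hk']
    refine (hc k).trans (mul_le_mul_of_nonneg_left ?_ hc0)
    apply Real.rpow_le_rpow (by (clear * -; positivity)) _ (by (clear * - hε; linarith))
    rw [Finset.mem_range] at hk
    have : (k : ℝ) ≤ N := by exact_mod_cast (by omega : k ≤ N)
    linarith only [this]
  obtain ⟨P', C, hP'⟩ := koenig_reduction (fun n m => Tb (n + m))
    (fun n n' m m' h1 h2 => hmono _ _ (by omega))
    ⟨P, hP.mono (fun _ _ h => h) fun n G _ => hle _⟩
  refine ⟨P', fun N => C * (Tb (2 * N) + (κ N + 1) * ((Nat.log 2 N + 1) * (N + 1))),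
    hP'.mono (fun _ _ _ => trivial) ?_, ?_⟩
  · intro n G hG
    beta_reduce
    have h1 : Nat.log 2 n ≤ Nat.log 2 (n + G.edgeSet.ncard) := Nat.log_mono_right (by omega)
    apply Nat.mul_le_mul_left
    apply Nat.add_le_add
    · exact hmono _ _ (by omega)
    · exact Nat.mul_le_mul (by omega) (Nat.mul_le_mul (by omega) le_rfl)
  · intro ε hε
    obtain ⟨c1, hc1, h1⟩ := nlog_bound (δ := ε / 2) (by linarith only [hε])
    obtain ⟨c2, hc2, h2⟩ := hTb' ε hε
    obtain ⟨c3, h3⟩ := hκ (ε / 2) (by linarith)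
    have hc3 : 0 ≤ c3 := by
      have := h3 0
      simp only [Nat.cast_zero, zero_add, Real.one_rpow, mul_one] at this
      exact (Nat.cast_nonneg _).trans this
    refine ⟨C * (c2 * 2 ^ (1 + ε) + (c3 + 1) * c1), fun N => ?_⟩
    have hN : (0 : ℝ) ≤ N := Nat.cast_nonneg N
    have hN1 : (0 : ℝ) < (N : ℝ) + 1 := by linarith
    set x : ℝ := (N : ℝ) + 1 with hx
    have g1 := h1 N
    have g3 := h3 N
    have g2 : (Tb (2 * N) : ℝ) ≤ c2 * 2 ^ (1 + ε) * x ^ (1 + ε) := by
      refine (h2 (2 * N)).trans ?_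
      rw [mul_assoc, ← Real.mul_rpow (by norm_num) hN1.le]
      apply mul_le_mul_of_nonneg_left _ hc2
      apply Real.rpow_le_rpow (by (clear * -; positivity)) _ (by linarith only [hε])
      push_cast
      rw [hx]
      linarith only []
    have p1 : (0 : ℝ) ≤ x ^ (ε / 2) := Real.rpow_nonneg hN1.le _
    have p3 : (1 : ℝ) ≤ x ^ (ε / 2) := Real.one_le_rpow (by linarith) (by linarith only [hε])
    have g4 : (κ N : ℝ) + 1 ≤ (c3 + 1) * x ^ (ε / 2) := by
      rw [add_mul, one_mul]; linarith only [g3, p3]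
    have e1 : x ^ (ε / 2) * (x ^ (ε / 2) * x) = x ^ (1 + ε) := by
      rw [← mul_assoc, ← Real.rpow_add hN1, ← Real.rpow_add_one hN1.ne']
      congr 1
      ring
    push_cast
    rw [mul_assoc]
    apply mul_le_mul_of_nonneg_left _ (Nat.cast_nonneg _)
    have q2 : ((κ N : ℝ) + 1) * (((Nat.log 2 N : ℝ) + 1) * x) ≤
        (c3 + 1) * c1 * x ^ (1 + ε) := by
      calc ((κ N : ℝ) + 1) * (((Nat.log 2 N : ℝ) + 1) * x) ≤
          ((c3 + 1) * x ^ (ε / 2)) * ((c1 * x ^ (ε / 2)) * x) := by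
            apply mul_le_mul g4 _ (by (clear * -; positivity)) (by (clear * - hc3; positivity))
            exact mul_le_mul_of_nonneg_right g1 hN1.le
        _ = (c3 + 1) * c1 * (x ^ (ε / 2) * (x ^ (ε / 2) * x)) := by ring
        _ = _ := by rw [e1]
    rw [add_mul (c2 * 2 ^ (1 + ε))]
    exact add_le_add g2 q2

end Vale.Agent.P305
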